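import Vale.Agent.P160.Height.Height

/-! Kernel vectors of exponential height and the singularity of random symmetric sign matrices. -/

open Filter
open scoped Topology

namespace Vale.Agent.Results.P160.StructuredAsymptotic

open Vale.Agent.P160 Vale.Agent.P160.Height

/-- There is `δ > 0` such that a kernel vector of height at most `2 ^ (δ n)` occurs with probability
asymptotic to `n² 2^(-n)`, also when vectors with many zeros or concentrated signed sums are allowed,
and the rate `1/2` for `q_n` holds iff the remaining part is at most `(1/2+ε)^n` eventually for every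
`ε > 0`. -/
theorem result : ∃ δ : ℝ, 0 < δ ∧
    Tendsto (fun n : ℕ => heightProb δ n / ((n : ℝ) ^ 2 * (1/2:ℝ) ^ n)) atTop (𝓝 1) ∧
    Tendsto (fun n : ℕ => lowProb δ n / ((n : ℝ) ^ 2 * (1/2:ℝ) ^ n)) atTop (𝓝 1) ∧
    (∀ n : ℕ, lowProb δ n ≤ singProb n) ∧
    (Tendsto (fun n : ℕ => singProb n ^ (1 / (n : ℝ))) atTop (𝓝 (1/2)) ↔
      ∀ ε > (0:ℝ), ∀ᶠ n : ℕ in atTop, highProb δ n ≤ (1/2 + ε) ^ n) := by
  obtain ⟨δ, hδ, h1, h2⟩ := exists_height_asymptotic
  exact ⟨δ, hδ, h1, h2, lowProb_le_singProb δ, rate_iff_low δ h2⟩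

end Vale.Agent.Results.P160.StructuredAsymptotic
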